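import Vale.Agent.Lib.P060.Defs

namespace Vale.Agent.Lib.P060

open SimpleGraph

/-- Building a clique minor from branch sets of size at most two. -/
theorem minor_of_pairs {V : Type*} (G : SimpleGraph V) (t : ℕ) (p q : Fin t → V)
    (h1 : ∀ i, p i = q i ∨ G.Adj (p i) (q i))
    (h2 : ∀ i j, i ≠ j → p i ≠ p j ∧ p i ≠ q j ∧ q i ≠ p j ∧ q i ≠ q j)
    (h3 : ∀ i j, i ≠ j →
      G.Adj (p i) (p j) ∨ G.Adj (p i) (q j) ∨ G.Adj (q i) (p j) ∨ G.Adj (q i) (q j)) :
    HasCliqueMinor G t := by
  refine ⟨fun i => {p i, q i}, fun i => ⟨p i, by simp⟩, fun i => ?_, fun i j hij => ?_,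
    fun i j hij => ?_⟩
  · show (G.induce {p i, q i}).Connected
    rcases h1 i with h | h
    · have hs : ({p i, q i} : Set V) = {p i} := by simp [← h]
      rw [hs]
      haveI : Subsingleton (({p i} : Set V) : Type _) := by
        constructor
        rintro ⟨a, ha⟩ ⟨b, hb⟩
        simp only [Set.mem_singleton_iff] at ha hb
        subst ha; subst hb; rfl
      haveI : Nonempty (({p i} : Set V) : Type _) := ⟨⟨p i, rfl⟩⟩
      exact { preconnected := Preconnected.of_subsingleton }
    · exact induce_pair_connected_of_adj h
  · obtain ⟨a, b, c, d⟩ := h2 i j hij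
    rw [Set.disjoint_left]
    intro x hx hy
    simp only [Set.mem_insert_iff, Set.mem_singleton_iff] at hx hy
    rcases hx with rfl | rfl <;> rcases hy with h | h
    · exact a h
    · exact b h
    · exact c h
    · exact d h
  · rcases h3 i j hij with h | h | h | h
    · exact ⟨_, by simp, _, by simp, h⟩
    · exact ⟨_, by simp, _, by simp, h⟩
    · exact ⟨_, by simp, _, by simp, h⟩
    · exact ⟨_, by simp, _, by simp, h⟩

variable {n : ℕ} {J : Set (ZMod n)}

/-- Translation invariance for nonadjacency in a circulant graph. -/
theorem circ_adj_sub (J : Set (ZMod n)) (x y d : ZMod n) :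
    (circulantGraph J).Adj (x + d) (y + d) ↔ (circulantGraph J).Adj x y :=
  circulantGraph_adj_translate

theorem circ_adj_zero (J : Set (ZMod n)) (x y : ZMod n) :
    (circulantGraph J).Adj x y ↔ (circulantGraph J).Adj 0 (y - x) := by
  rw [circulantGraph_adj, circulantGraph_adj]
  have e1 : 0 - (y - x) = x - y := by ring
  have e2 : y - x - 0 = y - x := by ring
  rw [e1, e2]
  apply and_congr_left
  intro _
  constructor
  · intro h h'
    exact h (sub_eq_zero.mp h'.symm).symm
  · intro h h'
    exact h (by rw [h']; ring)

theorem missing_neg {x : ZMod n} (h : Missing (circulantGraph J) x) :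
    Missing (circulantGraph J) (-x) := by
  refine ⟨neg_ne_zero.mpr h.1, fun h' => h.2 ?_⟩
  have h3 : (circulantGraph J).Adj (-x) 0 := h'.symm
  have h4 := (circ_adj_sub J (-x) 0 x).mpr h3
  simpa using h4

/-- Nonadjacent differences: if `x ≠ y` are nonadjacent then `y - x` is missing. -/
theorem missing_sub {x y : ZMod n} (hne : x ≠ y) (h : ¬ (circulantGraph J).Adj x y) :
    Missing (circulantGraph J) (y - x) := by
  refine ⟨sub_ne_zero.mpr hne.symm, fun h' => h ?_⟩
  exact (circ_adj_zero J x y).mpr h'

/-- Missing differences are nonadjacent. -/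
theorem not_adj_of_missing {x y : ZMod n} (h : Missing (circulantGraph J) (y - x)) :
    ¬ (circulantGraph J).Adj x y := by
  intro h'
  exact h.2 ((circ_adj_zero J x y).mp h')

/-- The complement is triangle free on differences: two missing differences cannot have a
missing difference. -/
theorem not_missing_add (hα : IndepNumLeTwo (circulantGraph J)) {x y : ZMod n}
    (hx : Missing (circulantGraph J) x) (hy : Missing (circulantGraph J) y) :
    ¬ Missing (circulantGraph J) (x + y) := by
  intro hxy
  have h1 : (0 : ZMod n) ≠ x := hx.1.symm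
  have h2 : x ≠ x + y := by
    intro h
    apply hy.1
    have : x + y = x + 0 := by rw [← h]; simp
    exact add_left_cancel this
  have h3 : (0 : ZMod n) ≠ x + y := hxy.1.symm
  rcases hα 0 x (x + y) h1 h2 h3 with h | h | h
  · exact hx.2 h
  · exact not_adj_of_missing (x := x) (y := x + y) (by simpa using hy) h
  · exact hxy.2 h

/-- Two missing differences have a non-missing difference. -/
theorem not_missing_sub (hα : IndepNumLeTwo (circulantGraph J)) {x y : ZMod n}
    (hx : Missing (circulantGraph J) x) (hy : Missing (circulantGraph J) y) :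
    ¬ Missing (circulantGraph J) (x - y) := by
  intro h
  have := not_missing_add hα hy h
  apply this
  simpa using hx

/-- No conflict between two pairs with the same step `b`, when `2 b` is missing. -/
theorem conflict_one_one (hα : IndepNumLeTwo (circulantGraph J)) {b : ZMod n}
    (hb : Missing (circulantGraph J) (2 * b)) {u v : ZMod n}
    (h1 : u ≠ v + b) (h2 : u + b ≠ v)
    (h : ¬ (circulantGraph J).Adj u (v + b)) (h' : ¬ (circulantGraph J).Adj (u + b) v) : False := by
  have m1 := missing_sub h1 h
  have m2 := missing_sub h2 h'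
  have hs : Missing (circulantGraph J) ((v + b - u) - (v - (u + b))) := by
    have : (v + b - u) - (v - (u + b)) = 2 * b := by ring
    rw [this]; exact hb
  exact not_missing_sub hα m1 m2 hs

/-- No conflict between a pair with step `3 b` and a pair with step `b`. -/
theorem conflict_three_one (hα : IndepNumLeTwo (circulantGraph J)) {b : ZMod n}
    (hb : Missing (circulantGraph J) (2 * b)) {u v : ZMod n}
    (h1 : u ≠ v) (h2 : u + 3 * b ≠ v + b)
    (h : ¬ (circulantGraph J).Adj u v)
    (h' : ¬ (circulantGraph J).Adj (u + 3 * b) (v + b)) : False := by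
  have m1 := missing_sub h1 h
  have m2 := missing_sub h2 h'
  have hs : Missing (circulantGraph J) ((v - u) - (v + b - (u + 3 * b))) := by
    have : (v - u) - (v + b - (u + 3 * b)) = 2 * b := by ring
    rw [this]; exact hb
  exact not_missing_sub hα m1 m2 hs

end Vale.Agent.Lib.P060
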