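import Vale.Agent.Lib.P060.Basic

namespace Vale.Agent.Lib.P060

open SimpleGraph Classical

section EvenCase

variable {n : ℕ} [NeZero n] {J : Set (ZMod n)}

/-- The bit of weight `d` flips under translation by an element of value `d` times an odd number,
when `2 d` divides the modulus. -/
theorem bit_flip {d r o : ℕ} (hn : n = 2 * d * r) (hd : 0 < d) (ho : Odd o) (b : ZMod n)
    (hb : b.val = d * o) (x : ZMod n) : (x + b).val / d % 2 ≠ x.val / d % 2 := by
  rw [ZMod.val_add, hb]
  set w := x.val with hw
  have h1 : (w + d * o) / d = w / d + o := Nat.add_mul_div_left _ _ hd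
  have h2 : w + d * o = n * ((w + d * o) / n) + (w + d * o) % n := (Nat.div_add_mod _ _).symm
  set q := (w + d * o) / n with hq
  set s := (w + d * o) % n with hs
  have h3 : w + d * o = d * (2 * (r * q)) + s := by
    rw [h2, hn]; ring
  have h4 : (w + d * o) / d = 2 * (r * q) + s / d := by
    rw [h3]; exact Nat.mul_add_div hd _ _
  obtain ⟨k, rfl⟩ := ho
  generalize r * q = y at h4
  generalize s / d = u at h4 ⊢
  generalize w / d = v at h1 ⊢
  omega

/-- The two classes of a flipping colouring have the same size. -/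
theorem card_class (b : ZMod n) (χ : ZMod n → ℕ) (hflip : ∀ x, χ (x + b) % 2 ≠ χ x % 2) :
    (Finset.univ.filter fun x => χ x % 2 = 0).card = n / 2 := by
  set R := Finset.univ.filter fun x : ZMod n => χ x % 2 = 0 with hR
  set R' := Finset.univ.filter fun x : ZMod n => ¬ χ x % 2 = 0 with hR'
  have h1 : R.card + R'.card = n := by
    have := Finset.card_filter_add_card_filter_not (s := (Finset.univ : Finset (ZMod n)))
      (fun x => χ x % 2 = 0)
    rw [Finset.card_univ, ZMod.card] at this
    exact this
  have h2 : R.card = R'.card := by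
    refine Finset.card_bij (fun x _ => x + b) ?_ ?_ ?_
    · intro x hx
      simp only [hR, hR', Finset.mem_filter, Finset.mem_univ, true_and] at hx ⊢
      have := hflip x
      omega
    · intro x _ y _ h
      exact add_right_cancel h
    · intro y hy
      simp only [hR', Finset.mem_filter, Finset.mem_univ, true_and] at hy
      refine ⟨y - b, ?_, by simp⟩
      simp only [hR, Finset.mem_filter, Finset.mem_univ, true_and]
      have := hflip (y - b)
      simp only [sub_add_cancel] at this
      omega
  omega

/-- Perfect matching along a step `b` whose double is missing. -/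
theorem pairs_case (hα : IndepNumLeTwo (circulantGraph J)) {b : ZMod n}
    (hb : Missing (circulantGraph J) (2 * b)) (χ : ZMod n → ℕ)
    (hflip : ∀ x, χ (x + b) % 2 ≠ χ x % 2) :
    HasCliqueMinor (circulantGraph J) (n / 2) := by
  have hc := card_class b χ hflip
  set R := Finset.univ.filter fun x : ZMod n => χ x % 2 = 0 with hR
  let e : R ≃ Fin (n / 2) := Finset.equivFinOfCardEq hc
  have hmem : ∀ i, χ (e.symm i).val % 2 = 0 := by
    intro i
    have h := (e.symm i).property
    exact (Finset.mem_filter.mp h).2
  have hb0 : ¬ Missing (circulantGraph J) b := by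
    intro h
    apply not_missing_add hα h h
    rw [← two_mul]
    exact hb
  have hbne : b ≠ 0 := by
    intro h
    have := hflip 0
    simp [h] at this
  have hinj : ∀ i j, i ≠ j → (e.symm i).val ≠ (e.symm j).val := by
    intro i j hij h
    exact hij (e.symm.injective (Subtype.ext h))
  have hcross : ∀ i j, (e.symm i).val ≠ (e.symm j).val + b := by
    intro i j h
    have h1 := hmem i
    have h2 := hmem j
    have h3 := hflip (e.symm j).val
    rw [← h] at h3
    omega
  apply minor_of_pairs (circulantGraph J) (n / 2) (fun i => (e.symm i).val)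
    (fun i => (e.symm i).val + b)
  · intro i
    right
    show (circulantGraph J).Adj _ _
    rw [circ_adj_zero]
    have : (e.symm i).val + b - (e.symm i).val = b := by ring
    rw [this]
    by_contra hadj
    exact hb0 ⟨hbne, hadj⟩
  · intro i j hij
    refine ⟨hinj i j hij, hcross i j, (hcross j i).symm, ?_⟩
    intro h
    exact hinj i j hij (add_right_cancel h)
  · intro i j hij
    by_contra hcon
    push Not at hcon
    obtain ⟨_, c2, c3, _⟩ := hcon
    exact conflict_one_one hα hb (hcross i j) (hcross j i).symm c2 c3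

/-- A clique of the right size gives the minor. -/
theorem clique_case (χ : ZMod n → ℕ) (b : ZMod n)
    (hflip : ∀ x, χ (x + b) % 2 ≠ χ x % 2)
    (hclique : ∀ x y : ZMod n, x ≠ y → χ x % 2 = 0 → χ y % 2 = 0 → (circulantGraph J).Adj x y) :
    HasCliqueMinor (circulantGraph J) (n / 2) := by
  have hc := card_class b χ hflip
  set R := Finset.univ.filter fun x : ZMod n => χ x % 2 = 0 with hR
  let e : R ≃ Fin (n / 2) := Finset.equivFinOfCardEq hc
  have hmem : ∀ i, χ (e.symm i).val % 2 = 0 := by
    intro i
    have h := (e.symm i).property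
    exact (Finset.mem_filter.mp h).2
  have hinj : ∀ i j, i ≠ j → (e.symm i).val ≠ (e.symm j).val := by
    intro i j hij h
    exact hij (e.symm.injective (Subtype.ext h))
  apply minor_of_pairs (circulantGraph J) (n / 2) (fun i => (e.symm i).val)
    (fun i => (e.symm i).val)
  · intro i
    left; rfl
  · intro i j hij
    exact ⟨hinj i j hij, hinj i j hij, hinj i j hij, hinj i j hij⟩
  · intro i j hij
    left
    exact hclique _ _ (hinj i j hij) (hmem i) (hmem j)

/-- Parity of the value is additive when the modulus is even. -/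
theorem val_add_parity (hn : 2 ∣ n) (x y : ZMod n) : (x + y).val % 2 = (x.val + y.val) % 2 := by
  rw [ZMod.val_add, Nat.mod_mod_of_dvd _ hn]

/-- Every even residue modulo an even modulus has a halving element with a flipping colouring. -/
theorem exists_half {m : ℕ} (hn : n = 2 * m) {a : ZMod n} (ha : a ≠ 0) (hev : a.val % 2 = 0) :
    ∃ (b : ZMod n) (d r o : ℕ), 2 * b = a ∧ n = 2 * d * r ∧ 0 < d ∧ Odd o ∧ b.val = d * o := by
  have hm : 0 < m := by
    have := NeZero.pos n
    omega
  have hval : a.val < n := ZMod.val_lt a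
  have hav : a.val ≠ 0 := by
    intro h
    exact ha ((ZMod.val_eq_zero a).mp h)
  obtain ⟨c, hc⟩ : ∃ c, a.val = 2 * c := ⟨a.val / 2, by omega⟩
  have hcast : (a.val : ZMod n) = a := ZMod.natCast_zmod_val a
  have hcm : c < m := by omega
  have hc0 : c ≠ 0 := by omega
  obtain ⟨u, o₁, ho₁, hc1⟩ := Nat.exists_eq_two_pow_mul_odd hc0
  by_cases hdvd : 2 ^ (u + 1) ∣ n
  · obtain ⟨r, hr⟩ := hdvd
    refine ⟨(c : ZMod n), 2 ^ u, r, o₁, ?_, ?_, by positivity, ho₁, ?_⟩
    · have : (2 : ZMod n) * (c : ZMod n) = ((2 * c : ℕ) : ZMod n) := by push_cast; ring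
      rw [this, ← hc, hcast]
    · rw [hr]; ring
    · rw [ZMod.val_natCast, Nat.mod_eq_of_lt (by omega)]
      exact hc1
  · have hm0 : m ≠ 0 := by omega
    obtain ⟨w, o₂, ho₂, hm1⟩ := Nat.exists_eq_two_pow_mul_odd hm0
    have hwu : w < u := by
      by_contra hcon
      apply hdvd
      have hle : u ≤ w := by omega
      refine ⟨2 ^ (w - u) * o₂, ?_⟩
      have : 2 ^ w = 2 ^ u * 2 ^ (w - u) := by
        rw [← pow_add]; congr 1; omega
      rw [hn, hm1, this, pow_succ]
      ring
    refine ⟨((c + m : ℕ) : ZMod n), 2 ^ w, o₂, 2 ^ (u - w) * o₁ + o₂, ?_, ?_, by positivity, ?_, ?_⟩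
    · have h0 : ((2 * m : ℕ) : ZMod n) = 0 := by
        rw [← hn]; exact ZMod.natCast_self n
      have : (2 : ZMod n) * ((c + m : ℕ) : ZMod n) = ((2 * c : ℕ) : ZMod n) + ((2 * m : ℕ) : ZMod n) := by
        push_cast; ring
      rw [this, h0, ← hc, hcast, add_zero]
    · rw [hn, hm1]; ring
    · have hev2 : Even (2 ^ (u - w) * o₁) := by
        apply Even.mul_right
        exact (Nat.even_pow.mpr ⟨even_two, by omega⟩)
      exact hev2.add_odd ho₂
    · rw [ZMod.val_natCast, Nat.mod_eq_of_lt (by omega), hc1, hm1]
      have : 2 ^ u = 2 ^ w * 2 ^ (u - w) := by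
        rw [← pow_add]; congr 1; omega
      rw [this]; ring

/-- The even case. -/
theorem even_case {m : ℕ} (hn : n = 2 * m) (hα : IndepNumLeTwo (circulantGraph J)) :
    HasCliqueMinor (circulantGraph J) (n / 2) := by
  by_cases hex : ∃ a : ZMod n, Missing (circulantGraph J) a ∧ a.val % 2 = 0
  · obtain ⟨a, ham, hev⟩ := hex
    obtain ⟨b, d, r, o, hb, hn', hd, ho, hval⟩ := exists_half hn ham.1 hev
    have hm : Missing (circulantGraph J) (2 * b) := by rw [hb]; exact ham
    exact pairs_case hα hm (fun x => x.val / d) (fun x => bit_flip hn' hd ho b hval x)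
  · push Not at hex
    have hm : 0 < m := by
      have := NeZero.pos n
      omega
    have hn1 : n ≠ 1 := by omega
    have hfl : ∀ x : ZMod n, (x + 1).val / 1 % 2 ≠ x.val / 1 % 2 := by
      intro x
      refine bit_flip (d := 1) (r := m) (o := 1) (by omega) (by omega) odd_one 1 ?_ x
      haveI : Fact (1 < n) := ⟨by have := NeZero.pos n; omega⟩
      simp [ZMod.val_one]
    refine clique_case (fun x => x.val / 1) 1 hfl ?_
    intro x y hxy hx hy
    by_contra hadj
    have hm' := missing_sub hxy hadj
    have hpar := hex _ hm'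
    have h2 : 2 ∣ n := ⟨m, hn⟩
    have h3 := val_add_parity h2 (y - x) x
    simp only [sub_add_cancel] at h3
    simp only [Nat.div_one] at hx hy
    omega

end EvenCase

end Vale.Agent.Lib.P060
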