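import Vale.Agent.Lib.P060.Basic

namespace Vale.Agent.Lib.P060

open SimpleGraph Classical

section OddCase

variable {m : ℕ} {J : Set (ZMod (2 * m + 1))} {b : ZMod (2 * m + 1)}

/-- Position `i` on the cycle generated by the step `b`. -/
noncomputable def pos (b : ZMod (2 * m + 1)) (i : ℕ) : ZMod (2 * m + 1) := (i : ZMod (2 * m + 1)) * b

theorem pos_add (b : ZMod (2 * m + 1)) (i k : ℕ) :
    pos b (i + k) = pos b i + (k : ZMod (2 * m + 1)) * b := by
  simp [pos, add_mul]

theorem pos_inj (hb : IsUnit b) {i j : ℕ} (hi : i < 2 * m + 1) (hj : j < 2 * m + 1)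
    (h : pos b i = pos b j) : i = j := by
  have h1 : (i : ZMod (2 * m + 1)) = j := hb.mul_right_cancel h
  have h2 := (ZMod.natCast_eq_natCast_iff' i j (2 * m + 1)).mp h1
  rwa [Nat.mod_eq_of_lt hi, Nat.mod_eq_of_lt hj] at h2

theorem pos_zero (b : ZMod (2 * m + 1)) : pos b 0 = 0 := by simp [pos]

theorem pos_ne_zero (hb : IsUnit b) {i : ℕ} (hi : 0 < i) (hi' : i < 2 * m + 1) : pos b i ≠ 0 := by
  intro h
  have := pos_inj hb hi' (by omega : 0 < 2 * m + 1) (h.trans (pos_zero b).symm)
  omega

/-- A domino: the standard pair number `j` lies inside the set of missing differences. -/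
def Dom (J : Set (ZMod (2 * m + 1))) (b : ZMod (2 * m + 1)) (j : ℕ) : Prop :=
  Missing (circulantGraph J) (pos b (2 * j + 1)) ∧ Missing (circulantGraph J) (pos b (2 * j + 2))

/-- Whether the preceding standard pair is a domino. -/
def Prev (J : Set (ZMod (2 * m + 1))) (b : ZMod (2 * m + 1)) (j : ℕ) : Prop :=
  j ≠ 0 ∧ Dom J b (j - 1)

/-- Left position of the pair number `j`. -/
noncomputable def lft (J : Set (ZMod (2 * m + 1))) (b : ZMod (2 * m + 1)) (j : ℕ) : ℕ :=
  if Dom J b j then 2 * j + 1 else if Prev J b j then 2 * j else 2 * j + 1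

/-- Right position of the pair number `j`. -/
noncomputable def rgt (J : Set (ZMod (2 * m + 1))) (b : ZMod (2 * m + 1)) (j : ℕ) : ℕ :=
  if Dom J b j then 2 * j + 4 else if Prev J b j then 2 * j + 1 else 2 * j + 2

theorem b_not_missing (hα : IndepNumLeTwo (circulantGraph J))
    (h2 : Missing (circulantGraph J) (2 * b)) : ¬ Missing (circulantGraph J) b := by
  intro h
  apply not_missing_add hα h h
  rw [← two_mul]
  exact h2

theorem dom_bound (hα : IndepNumLeTwo (circulantGraph J))
    (h2 : Missing (circulantGraph J) (2 * b)) {j : ℕ} (hj : j < m) (hd : Dom J b j) :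
    j + 2 ≤ m := by
  by_contra hcon
  have hjm : j + 1 = m := by omega
  have h3 := hd.2
  have h4 : pos b (2 * j + 2) = - b := by
    have h5 : ((2 * m + 1 : ℕ) : ZMod (2 * m + 1)) = 0 := ZMod.natCast_self _
    have h6 : ((2 * j + 2 : ℕ) : ZMod (2 * m + 1)) = -1 := by
      have : (2 * j + 2 : ℕ) + 1 = 2 * m + 1 := by omega
      have h7 : ((2 * j + 2 : ℕ) : ZMod (2 * m + 1)) + 1 = 0 := by
        have := congrArg (Nat.cast : ℕ → ZMod (2 * m + 1)) this
        rw [Nat.cast_add, h5, Nat.cast_one] at this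
        exact this
      exact eq_neg_of_add_eq_zero_left h7
    simp only [pos]
    rw [h6]; ring
  rw [h4] at h3
  have h5 := missing_neg h3
  rw [neg_neg] at h5
  exact b_not_missing hα h2 h5

theorem dom_step (hα : IndepNumLeTwo (circulantGraph J))
    (h2 : Missing (circulantGraph J) (2 * b)) (k : ℕ)
    (h : Missing (circulantGraph J) (pos b k)) : ¬ Missing (circulantGraph J) (pos b (k + 2)) := by
  have := not_missing_add hα h h2
  rw [pos_add]
  simpa using this

theorem dom_not_succ (hα : IndepNumLeTwo (circulantGraph J))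
    (h2 : Missing (circulantGraph J) (2 * b)) {j : ℕ} (hd : Dom J b j) : ¬ Dom J b (j + 1) := by
  intro h
  have := dom_step hα h2 (2 * j + 1) hd.1
  apply this
  have e : 2 * j + 1 + 2 = 2 * (j + 1) + 1 := by ring
  rw [e]
  exact h.1

/-- The three shapes of a pair. -/
theorem lr_cases (hα : IndepNumLeTwo (circulantGraph J))
    (h2 : Missing (circulantGraph J) (2 * b)) {j : ℕ} (hj : j < m) :
    (Dom J b j ∧ lft J b j = 2 * j + 1 ∧ rgt J b j = 2 * j + 4 ∧ j + 2 ≤ m) ∨
    (¬ Dom J b j ∧ Prev J b j ∧ lft J b j = 2 * j ∧ rgt J b j = 2 * j + 1) ∨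
    (¬ Dom J b j ∧ ¬ Prev J b j ∧ lft J b j = 2 * j + 1 ∧ rgt J b j = 2 * j + 2) := by
  by_cases hd : Dom J b j
  · left
    exact ⟨hd, by simp [lft, hd], by simp [rgt, hd], dom_bound hα h2 hj hd⟩
  · by_cases hp : Prev J b j
    · right; left
      exact ⟨hd, hp, by simp [lft, hd, hp], by simp [rgt, hd, hp]⟩
    · right; right
      exact ⟨hd, hp, by simp [lft, hd, hp], by simp [rgt, hd, hp]⟩

theorem lr_bounds (hα : IndepNumLeTwo (circulantGraph J))
    (h2 : Missing (circulantGraph J) (2 * b)) {j : ℕ} (hj : j < m) :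
    0 < lft J b j ∧ lft J b j ≤ 2 * m ∧ 0 < rgt J b j ∧ rgt J b j ≤ 2 * m := by
  rcases lr_cases hα h2 hj with ⟨_, h1, h3, h4⟩ | ⟨_, hp, h1, h3⟩ | ⟨_, _, h1, h3⟩
  · omega
  · have := hp.1
    omega
  · omega

theorem lr_disjoint (hα : IndepNumLeTwo (circulantGraph J))
    (h2 : Missing (circulantGraph J) (2 * b)) {j k : ℕ} (hjk : j < k) (hk : k < m) :
    lft J b j ≠ lft J b k ∧ lft J b j ≠ rgt J b k ∧
      rgt J b j ≠ lft J b k ∧ rgt J b j ≠ rgt J b k := by
  have hj : j < m := by omega
  rcases lr_cases hα h2 hj with ⟨hd, h1, h3, _⟩ | ⟨hd, hp, h1, h3⟩ | ⟨hd, hp, h1, h3⟩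
  · rcases lr_cases hα h2 hk with ⟨hd', h1', h3', _⟩ | ⟨hd', hp', h1', h3'⟩ | ⟨hd', hp', h1', h3'⟩
    · omega
    · have hne : k ≠ j + 2 := by
        rintro rfl
        exact dom_not_succ hα h2 hd hp'.2
      omega
    · have hne : k ≠ j + 1 := by
        rintro rfl
        exact hp' ⟨by omega, by simpa using hd⟩
      omega
  · rcases lr_cases hα h2 hk with ⟨hd', h1', h3', _⟩ | ⟨hd', hp', h1', h3'⟩ | ⟨hd', hp', h1', h3'⟩ <;>
      omega
  · rcases lr_cases hα h2 hk with ⟨hd', h1', h3', _⟩ | ⟨hd', hp', h1', h3'⟩ | ⟨hd', hp', h1', h3'⟩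
    · omega
    · have hne : k ≠ j + 1 := by
        rintro rfl
        exact hd (by simpa using hp'.2)
      omega
    · omega

/-- Each pair has the shape step one, or step three starting at a missing position. -/
theorem lr_type (hα : IndepNumLeTwo (circulantGraph J))
    (h2 : Missing (circulantGraph J) (2 * b)) {j : ℕ} (hj : j < m) :
    rgt J b j = lft J b j + 1 ∨
      (rgt J b j = lft J b j + 3 ∧ Missing (circulantGraph J) (pos b (lft J b j))) := by
  rcases lr_cases hα h2 hj with ⟨hd, h1, h3, _⟩ | ⟨hd, hp, h1, h3⟩ | ⟨hd, hp, h1, h3⟩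
  · right
    refine ⟨by omega, ?_⟩
    rw [h1]; exact hd.1
  · left; omega
  · left; omega

/-- Each pair has a position that is adjacent to `0`. -/
theorem lr_touch (hα : IndepNumLeTwo (circulantGraph J)) (hb : IsUnit b)
    (h2 : Missing (circulantGraph J) (2 * b)) {j : ℕ} (hj : j < m) :
    (circulantGraph J).Adj 0 (pos b (lft J b j)) ∨ (circulantGraph J).Adj 0 (pos b (rgt J b j)) := by
  obtain ⟨hl0, hl1, hr0, hr1⟩ := lr_bounds hα h2 hj
  have key : ∀ k, 0 < k → k ≤ 2 * m → ¬ Missing (circulantGraph J) (pos b k) →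
      (circulantGraph J).Adj 0 (pos b k) := by
    intro k hk hk' hm
    by_contra hadj
    exact hm ⟨pos_ne_zero hb hk (by omega), hadj⟩
  rcases lr_cases hα h2 hj with ⟨hd, h1, h3, _⟩ | ⟨hd, hp, h1, h3⟩ | ⟨hd, hp, h1, h3⟩
  · right
    apply key _ hr0 hr1
    rw [h3]
    have := dom_step hα h2 (2 * j + 2) hd.2
    exact this
  · right
    apply key _ hr0 hr1
    rw [h3]
    have h5 := hp.2.1
    have h6 := dom_step hα h2 _ h5
    have e : 2 * (j - 1) + 1 + 2 = 2 * j + 1 := by
      have := hp.1
      omega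
    rwa [e] at h6
  · by_cases hm : Missing (circulantGraph J) (pos b (2 * j + 1))
    · right
      apply key _ hr0 hr1
      rw [h3]
      intro hm'
      exact hd ⟨hm, hm'⟩
    · left
      apply key _ hl0 hl1
      rw [h1]
      exact hm

/-- Two disjoint pairs are joined by an edge. -/
theorem lr_adj (hα : IndepNumLeTwo (circulantGraph J)) (hb : IsUnit b)
    (h2 : Missing (circulantGraph J) (2 * b)) {j k : ℕ} (hj : j < m) (hk : k < m) (hjk : j ≠ k) :
    (circulantGraph J).Adj (pos b (lft J b j)) (pos b (lft J b k)) ∨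
    (circulantGraph J).Adj (pos b (lft J b j)) (pos b (rgt J b k)) ∨
    (circulantGraph J).Adj (pos b (rgt J b j)) (pos b (lft J b k)) ∨
    (circulantGraph J).Adj (pos b (rgt J b j)) (pos b (rgt J b k)) := by
  obtain ⟨hl0, hl1, hr0, hr1⟩ := lr_bounds hα h2 hj
  obtain ⟨hl0', hl1', hr0', hr1'⟩ := lr_bounds hα h2 hk
  have hdis : lft J b j ≠ lft J b k ∧ lft J b j ≠ rgt J b k ∧
      rgt J b j ≠ lft J b k ∧ rgt J b j ≠ rgt J b k := by
    rcases lt_or_gt_of_ne hjk with h | h
    · exact lr_disjoint hα h2 h hk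
    · obtain ⟨a, c, d, e⟩ := lr_disjoint hα h2 h hj
      exact ⟨a.symm, d.symm, c.symm, e.symm⟩
  obtain ⟨d1, d2, d3, d4⟩ := hdis
  have hne : ∀ x y : ℕ, x ≠ y → x ≤ 2 * m → y ≤ 2 * m → pos b x ≠ pos b y := by
    intro x y hxy hx hy h
    exact hxy (pos_inj hb (by omega) (by omega) h)
  by_contra hcon
  push Not at hcon
  obtain ⟨c1, c2, c3, c4⟩ := hcon
  rcases lr_type hα h2 hj with t | ⟨t, tm⟩ <;> rcases lr_type hα h2 hk with t' | ⟨t', tm'⟩
  · have a1 := hne _ _ d2 hl1 hr1'
    have a2 := hne _ _ d3 hr1 hl1'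
    rw [t, pos_add] at c3 c4 a2
    rw [t', pos_add] at c2 c4 a1
    simp only [Nat.cast_one, one_mul] at c2 c3 c4 a1 a2
    exact conflict_one_one hα h2 (u := pos b (lft J b j)) (v := pos b (lft J b k)) a1 a2 c2 c3
  · -- first has step one, second has step three
    rw [t, pos_add] at c3 c4
    rw [t', pos_add] at c2 c4
    simp only [Nat.cast_one, one_mul] at c3 c4
    have c1' : ¬ (circulantGraph J).Adj (pos b (lft J b k)) (pos b (lft J b j)) :=
      fun h => c1 h.symm
    have c4' : ¬ (circulantGraph J).Adj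
        (pos b (lft J b k) + ((3 : ℕ) : ZMod (2 * m + 1)) * b)
        (pos b (lft J b j) + b) := fun h => c4 h.symm
    refine conflict_three_one hα h2 (u := pos b (lft J b k)) (v := pos b (lft J b j))
      (hne _ _ d1.symm hl1' hl1) ?_ c1' (by simpa using c4')
    have := hne _ _ d4 hr1 hr1'
    rw [t, t', pos_add, pos_add] at this
    simpa using this.symm
  · -- first has step three, second has step one
    rw [t, pos_add] at c3 c4
    rw [t', pos_add] at c2 c4
    simp only [Nat.cast_one, one_mul] at c2 c4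
    refine conflict_three_one hα h2 (u := pos b (lft J b j)) (v := pos b (lft J b k))
      (hne _ _ d1 hl1 hl1') ?_ c1 (by simpa using c4)
    have := hne _ _ d4 hr1 hr1'
    rw [t, t', pos_add, pos_add] at this
    simpa using this
  · -- both have step three, both start at missing positions
    have m1 := missing_sub (hne _ _ d1 hl1 hl1') c1
    exact not_missing_sub hα tm' tm m1

/-- The odd case: a clique minor on `m + 1` branch sets. -/
theorem odd_case (hα : IndepNumLeTwo (circulantGraph J)) (hb : IsUnit b)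
    (h2 : Missing (circulantGraph J) (2 * b)) (h3 : ¬ Missing (circulantGraph J) (3 * b)) :
    HasCliqueMinor (circulantGraph J) (m + 1) := by
  let p : Fin (m + 1) → ZMod (2 * m + 1) := fun i =>
    if h : i.val = 0 then 0 else pos b (lft J b (i.val - 1))
  let q : Fin (m + 1) → ZMod (2 * m + 1) := fun i =>
    if h : i.val = 0 then 0 else pos b (rgt J b (i.val - 1))
  have hp0 : ∀ i : Fin (m + 1), i.val = 0 → p i = 0 := fun i h => dif_pos h
  have hq0 : ∀ i : Fin (m + 1), i.val = 0 → q i = 0 := fun i h => dif_pos h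
  have hp1 : ∀ i : Fin (m + 1), i.val ≠ 0 → p i = pos b (lft J b (i.val - 1)) :=
    fun i h => dif_neg h
  have hq1 : ∀ i : Fin (m + 1), i.val ≠ 0 → q i = pos b (rgt J b (i.val - 1)) :=
    fun i h => dif_neg h
  apply minor_of_pairs (circulantGraph J) (m + 1) p q
  · -- each branch set is connected
    intro i
    by_cases hi : i.val = 0
    · left; rw [hp0 i hi, hq0 i hi]
    · right
      rw [hp1 i hi, hq1 i hi]
      have hj : i.val - 1 < m := by
        have := i.isLt
        omega
      rw [circ_adj_zero]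
      rcases lr_type hα h2 hj with t | ⟨t, _⟩
      · rw [t, pos_add]
        have e : pos b (lft J b (i.val - 1)) + ((1 : ℕ) : ZMod (2 * m + 1)) * b
            - pos b (lft J b (i.val - 1)) = b := by simp
        rw [e]
        by_contra hadj
        refine b_not_missing hα h2 ⟨?_, hadj⟩
        have := pos_ne_zero hb (i := 1) (by omega) (by omega)
        simpa [pos] using this
      · rw [t, pos_add]
        have e : pos b (lft J b (i.val - 1)) + ((3 : ℕ) : ZMod (2 * m + 1)) * b
            - pos b (lft J b (i.val - 1)) = 3 * b := by simp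
        rw [e]
        by_contra hadj
        refine h3 ⟨?_, hadj⟩
        obtain ⟨h01, h11, h02, h12⟩ := lr_bounds hα h2 hj
        have := pos_ne_zero hb (i := 3) (by omega) (by omega)
        simpa [pos] using this
  · -- branch sets are disjoint
    intro i j hij
    have hne : i.val ≠ j.val := fun h => hij (Fin.ext h)
    have hI := i.isLt
    have hJ := j.isLt
    by_cases hi : i.val = 0
    · have hj : j.val ≠ 0 := by omega
      have hjm : j.val - 1 < m := by omega
      obtain ⟨h01, h11, h02, h12⟩ := lr_bounds hα h2 hjm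
      rw [hp0 i hi, hq0 i hi, hp1 j hj, hq1 j hj]
      have a1 := pos_ne_zero hb h01 (by omega)
      have a2 := pos_ne_zero hb h02 (by omega)
      exact ⟨a1.symm, a2.symm, a1.symm, a2.symm⟩
    · by_cases hj : j.val = 0
      · have him : i.val - 1 < m := by omega
        obtain ⟨h01, h11, h02, h12⟩ := lr_bounds hα h2 him
        rw [hp0 j hj, hq0 j hj, hp1 i hi, hq1 i hi]
        have a1 := pos_ne_zero hb h01 (by omega)
        have a2 := pos_ne_zero hb h02 (by omega)
        exact ⟨a1, a1, a2, a2⟩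
      · have him : i.val - 1 < m := by omega
        have hjm : j.val - 1 < m := by omega
        obtain ⟨h01, h11, h02, h12⟩ := lr_bounds hα h2 him
        obtain ⟨h01', h11', h02', h12'⟩ := lr_bounds hα h2 hjm
        rw [hp1 i hi, hq1 i hi, hp1 j hj, hq1 j hj]
        have hd : lft J b (i.val - 1) ≠ lft J b (j.val - 1) ∧
            lft J b (i.val - 1) ≠ rgt J b (j.val - 1) ∧
            rgt J b (i.val - 1) ≠ lft J b (j.val - 1) ∧
            rgt J b (i.val - 1) ≠ rgt J b (j.val - 1) := by
          rcases lt_or_gt_of_ne hne with h | h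
          · exact lr_disjoint hα h2 (by omega) hjm
          · obtain ⟨a, c, d, e⟩ := lr_disjoint hα h2 (by omega : j.val - 1 < i.val - 1) him
            exact ⟨a.symm, d.symm, c.symm, e.symm⟩
        obtain ⟨d1, d2, d3, d4⟩ := hd
        have hinj : ∀ x y : ℕ, x ≠ y → x ≤ 2 * m → y ≤ 2 * m → pos b x ≠ pos b y := by
          intro x y hxy hx hy h
          exact hxy (pos_inj hb (by omega) (by omega) h)
        exact ⟨hinj _ _ d1 h11 h11', hinj _ _ d2 h11 h12', hinj _ _ d3 h12 h11',
          hinj _ _ d4 h12 h12'⟩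
  · -- any two branch sets are joined by an edge
    intro i j hij
    have hne : i.val ≠ j.val := fun h => hij (Fin.ext h)
    have hI := i.isLt
    have hJ := j.isLt
    by_cases hi : i.val = 0
    · have hj : j.val ≠ 0 := by omega
      have hjm : j.val - 1 < m := by omega
      rw [hp0 i hi, hq0 i hi, hp1 j hj, hq1 j hj]
      rcases lr_touch hα hb h2 hjm with h | h
      · exact Or.inl h
      · exact Or.inr (Or.inl h)
    · by_cases hj : j.val = 0
      · have him : i.val - 1 < m := by omega
        rw [hp0 j hj, hq0 j hj, hp1 i hi, hq1 i hi]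
        rcases lr_touch hα hb h2 him with h | h
        · exact Or.inl h.symm
        · exact Or.inr (Or.inr (Or.inl h.symm))
      · have him : i.val - 1 < m := by omega
        have hjm : j.val - 1 < m := by omega
        rw [hp1 i hi, hq1 i hi, hp1 j hj, hq1 j hj]
        exact lr_adj hα hb h2 him hjm (by omega)

end OddCase

end Vale.Agent.Lib.P060
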